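import Mathlib

/-! P032: proper colourings of the plane, and colourings of boxes of integer points. -/

namespace Vale.Agent.N032Y

/-- The Euclidean plane has a proper colouring with `k` colours. -/
def Col (k : ℕ) : Prop :=
  ∃ c : EuclideanSpace ℝ (Fin 2) → Fin k, ∀ x y, ‖x - y‖ = 1 → c x ≠ c y

/-- The integer points of `[0, M) × [0, M)`. -/
noncomputable def box (M : ℕ) : Finset (ℤ × ℤ) := Finset.Ico 0 (M : ℤ) ×ˢ Finset.Ico 0 (M : ℤ)

/-- The distance of the integer points `p`, `q` lies between `N - 2` and `N + 2`. -/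
def Near (N : ℕ) (p q : ℤ × ℤ) : Prop :=
  ((N : ℤ) - 2) ^ 2 ≤ (p.1 - q.1) ^ 2 + (p.2 - q.2) ^ 2 ∧
    (p.1 - q.1) ^ 2 + (p.2 - q.2) ^ 2 ≤ ((N : ℤ) + 2) ^ 2

/-- The number of ordered pairs of points of the box at distance about `N` with the same colour. -/
noncomputable def mono {k : ℕ} (N M : ℕ) (c : ℤ × ℤ → Fin k) : ℕ :=
  {e : (ℤ × ℤ) × ℤ × ℤ | e.1 ∈ box M ∧ e.2 ∈ box M ∧ Near N e.1 e.2 ∧ c e.1 = c e.2}.ncard

end Vale.Agent.N032Y
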