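import Vale.Agent.N032Y.Up

/-! P032: from colourings of integer boxes to colourings of the plane. -/

open MeasureTheory Set Filter Topology Real
open scoped ENNReal Classical

namespace Vale.Agent.N032Y

open Vale.Agent.P032.M

/-- a translated box -/
noncomputable def tile (s : ℕ) (j : ℤ × ℤ) : Finset (ℤ × ℤ) :=
  Finset.Ico (j.1 * s) (j.1 * s + s) ×ˢ Finset.Ico (j.2 * s) (j.2 * s + s)

theorem exists_tile {k N M s : ℕ} (hs : 0 < s) (hM : s ≤ M) (c : ℤ × ℤ → Fin k) :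
    ∃ j, ((pairs N (tile s j) c).card : ℝ) * M ^ 2 ≤ 4 * s ^ 2 * mono N M c := by
  set J := M / s with hJ
  have hJ0 : 0 < J := Nat.div_pos hM hs
  have h1 : J * s ≤ M := Nat.div_mul_le_self M s
  have h2 : M ≤ 2 * J * s := by
    have := Nat.lt_div_mul_add (a := M) hs
    nlinarith
  have hs' : (0:ℤ) < s := by exact_mod_cast hs
  let g : (ℤ × ℤ) × ℤ × ℤ → ℤ × ℤ := fun e => (e.1.1 / s, e.1.2 / s)
  have hd : ∀ u v : ℤ, u * s ≤ v → v < u * s + s → v / s = u := fun u v h3 h4 =>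
    le_antisymm (Int.lt_add_one_iff.1 ((Int.ediv_lt_iff_lt_mul hs').2 (by linarith)))
      ((Int.le_ediv_iff_mul_le hs').2 h3)
  have hb : ∀ u v : ℤ, 0 ≤ u → u < J → u * s ≤ v → v < u * s + s → 0 ≤ v ∧ v < M :=
    fun u v h3 h4 h5 h6 => by
      have : (J : ℤ) * s ≤ M := by exact_mod_cast h1
      constructor <;> nlinarith
  have h3 : ∑ j ∈ box J, (pairs N (tile s j) c).card ≤ mono N M c := by
    rw [mono_eq]
    refine (Finset.sum_le_sum fun j hj => Finset.card_le_card (t := (pairs N (box M) c).filter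
      fun e => g e = j) fun e he => ?_).trans ((Finset.sum_card_fiberwise_eq_card_filter _ _
        g).trans_le (Finset.card_filter_le _ _))
    simp only [pairs, tile, box, Finset.mem_filter, Finset.mem_product, Finset.mem_Ico] at he hj ⊢
    obtain ⟨⟨⟨a1, a2⟩, a3, a4⟩, a5⟩ := he
    exact ⟨⟨⟨⟨hb _ _ hj.1.1 hj.1.2 a1.1 a1.2, hb _ _ hj.2.1 hj.2.2 a2.1 a2.2⟩,
      hb _ _ hj.1.1 hj.1.2 a3.1 a3.2, hb _ _ hj.2.1 hj.2.2 a4.1 a4.2⟩, a5⟩,
      Prod.ext (hd _ _ a1.1 a1.2) (hd _ _ a2.1 a2.2)⟩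
  obtain ⟨j, -, hj⟩ := Finset.exists_le_of_sum_le (s := box J)
    (f := fun j => J ^ 2 * (pairs N (tile s j) c).card) (g := fun _ => mono N M c)
    (Finset.card_pos.1 (by rw [card_box]; positivity)) (by
      rw [← Finset.mul_sum, Finset.sum_const, card_box, smul_eq_mul]
      exact Nat.mul_le_mul_left _ h3)
  refine ⟨j, ?_⟩
  have h4 : (pairs N (tile s j) c).card * M ^ 2 ≤ 4 * s ^ 2 * mono N M c :=
    calc _ ≤ (pairs N (tile s j) c).card * (2 * J * s) ^ 2 := by gcongr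
      _ = 4 * s ^ 2 * (J ^ 2 * (pairs N (tile s j) c).card) := by ring
      _ ≤ _ := Nat.mul_le_mul_left _ hj
  exact_mod_cast h4

theorem step {k N n : ℕ} (hN : 4 ≤ N) {j : ℤ × ℤ} {c : ℤ × ℤ → Fin k} {ε : ℝ}
    (h : ((pairs N (tile (4 * (n + 2) * N) j) c).card : ℝ) ≤ ε * N ^ 3) :
    ∃ c : ℂ → Fin k, Measurable c ∧ volume {p : ℂ × ℝ | ‖p.1‖ ≤ n ∧ p.2 ∈ Ioc 0 (2 * π) ∧
      c (p.1 + e p.2) = c p.1} ≤ ENNReal.ofReal (2 * ε) := by
  have hN' : (4:ℝ) ≤ N := by exact_mod_cast hN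
  have hn : (0:ℝ) ≤ n := Nat.cast_nonneg n
  have he := measurable_e
  set s := 4 * (n + 2) * N with hs
  have hs' : (s : ℝ) = 4 * (n + 2) * N := by rw [hs]; push_cast; ring
  let z : ℂ := ⟨j.1 * s + s / 2, j.2 * s + s / 2⟩
  have hz : ∀ x : ℂ, ‖x - z‖ ≤ 2 * (n + 1) * N → fl x ∈ tile s j := fun x hx => by
    have h1 := abs_le.1 ((Complex.abs_re_le_norm _).trans hx)
    have h2 := abs_le.1 ((Complex.abs_im_le_norm _).trans hx)
    simp only [z, Complex.sub_re, Complex.sub_im] at h1 h2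
    simp only [tile, fl, Finset.mem_product, Finset.mem_Ico, Int.le_floor, Int.floor_lt]
    push_cast
    refine ⟨⟨?_, ?_⟩, ?_, ?_⟩ <;> nlinarith [h1.1, h1.2, h2.1, h2.2]
  have hc : Measurable fun x => c (fl x) := (measurable_from_top (f := c)).comp
    (meas_fl.mono le_rfl fun t _ => MeasurableSet.of_discrete)
  let W : Set (ℂ × ℂ) := {p | ‖p.1 - z‖ ≤ 2 * n * N ∧ c (fl p.2) = c (fl p.1)}
  have hW : MeasurableSet W := (measurableSet_le (f := fun p : ℂ × ℂ => ‖p.1 - z‖)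
    (g := fun _ => 2 * (n : ℝ) * N) (by fun_prop) measurable_const).inter
    (measurableSet_eq_fun (hc.comp measurable_snd) (hc.comp measurable_fst))
  have hW1 : Measurable (W.indicator (1 : ℂ × ℂ → ℝ≥0∞)) := measurable_one.indicator hW
  have hΦ : Measurable fun q : ℝ × ℂ => ∫⁻ t, W.indicator (1 : ℂ × ℂ → ℝ≥0∞)
      (q.2, q.2 + q.1 * e t) ∂arc := Measurable.lintegral_prod_right'
    (f := fun q : (ℝ × ℂ) × ℝ => W.indicator 1 (q.1.2, q.1.2 + q.1.1 * e q.2)) (by fun_prop)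
  have h1 : volume.prod volume (W ∩ {p | ‖p.2 - p.1‖ ∈ Icc (N : ℝ) (N + 1 / 2)}) ≤
      ENNReal.ofReal (ε * N ^ 3) := by
    refine (measure_mono (t := Prod.map fl fl ⁻¹' (pairs N (tile s j) c)) fun p hp =>
      Finset.mem_filter.2 ⟨Finset.mem_product.2 ⟨hz _ (by nlinarith [hp.1.1]), hz _ ?_⟩,
        near_of hN hp.2, Eq.symm hp.1.2⟩).trans ?_
    · rw [show p.2 - z = (p.2 - p.1) + (p.1 - z) by ring]
      linarith [norm_add_le (p.2 - p.1) (p.1 - z), hp.1.1, hp.2.2]
    · rw [← sum_measure_preimage_singleton _ fun y _ =>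
        (meas_fl.prodMap meas_fl) (measurableSet_singleton y)]
      refine le_trans (le_of_eq ?_) (ENNReal.ofReal_le_ofReal h)
      rw [ENNReal.ofReal_natCast, Finset.card_eq_sum_ones, Nat.cast_sum]
      refine Finset.sum_congr rfl fun y _ => ?_
      rw [← singleton_prod_singleton, preimage_prod_map_prod, Measure.prod_prod, vol_cell, vol_cell]
      simp
  rw [pair_polar hW measurableSet_Icc fun r hr => by show 0 < r; linarith [hr.1]] at h1
  obtain ⟨r, hr, h2⟩ := exists_le_setLAverage (μ := volume) (s := Icc (N : ℝ) (N + 1 / 2))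
    (f := fun r => ENNReal.ofReal r * ∫⁻ x, ∫⁻ t, W.indicator 1 (x, x + r * e t) ∂arc)
    (by simp) (by simp) (measurable_id.ennreal_ofReal.mul hΦ.lintegral_prod_right').aemeasurable
  have hr0 : 0 < r := by linarith [hr.1]
  rw [setLAverage_eq, Real.volume_Icc, add_sub_cancel_left] at h2
  have h3 := h2.trans (ENNReal.div_le_div_right h1 _)
  have hc' : Measurable fun y : ℂ => c (fl (z + r • y)) := hc.comp (by fun_prop)
  refine ⟨_, hc', ?_⟩
  calc _ ≤ volume.prod arc {p : ℂ × ℝ | (z + r • p.1, z + r • p.1 + r * e p.2) ∈ W} := by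
        rw [← Measure.restrict_univ (μ := (volume : Measure ℂ)), Measure.prod_restrict,
          Measure.restrict_apply' (MeasurableSet.univ.prod measurableSet_Ioc)]
        refine measure_mono fun p hp => ⟨⟨?_, ?_⟩, trivial, hp.2.1⟩
        · rw [add_sub_cancel_left, norm_smul, Real.norm_of_nonneg hr0.le]
          nlinarith [hp.1, hr.2, norm_nonneg p.1]
        · have := hp.2.2
          rwa [smul_add, ← add_assoc, Complex.real_smul (z := e p.2)] at this
    _ = ∫⁻ y, ∫⁻ t, W.indicator 1 (z + r • y, z + r • y + r * e t) ∂arc := by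
        have h4 : MeasurableSet {p : ℂ × ℝ | (z + r • p.1, z + r • p.1 + r * e p.2) ∈ W} :=
          hW.preimage (f := fun p : ℂ × ℝ => (z + r • p.1, z + r • p.1 + r * e p.2)) (by fun_prop)
        rw [← lintegral_indicator_one h4,
          lintegral_prod _ (measurable_one.indicator h4).aemeasurable]
        rfl
    _ = ENNReal.ofReal (r ^ 2)⁻¹ * ∫⁻ x, ∫⁻ t, W.indicator 1 (x, x + r * e t) ∂arc := by
        have h4 : Measurable fun x : ℂ => ∫⁻ t, W.indicator (1 : ℂ × ℂ → ℝ≥0∞)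
          (z + x, z + x + r * e t) ∂arc := hΦ.comp (f := fun x : ℂ => (r, z + x)) (by fun_prop)
        rw [← lintegral_map h4 (measurable_const_smul r), Measure.map_addHaar_smul _ hr0.ne',
          lintegral_smul_measure, Complex.finrank_real_complex, abs_of_pos (by positivity),
          lintegral_add_left_eq_self
            (fun x => ∫⁻ t, W.indicator (1 : ℂ × ℂ → ℝ≥0∞) (x, x + r * e t) ∂arc) z, smul_eq_mul]
    _ ≤ ENNReal.ofReal (r ^ 3)⁻¹ * (ENNReal.ofReal (ε * N ^ 3) / ENNReal.ofReal (1 / 2)) := by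
        refine le_trans (le_of_eq ?_) (mul_le_mul_right h3 _)
        rw [← mul_assoc, ← ENNReal.ofReal_mul (by positivity)]
        congr 2
        field_simp
    _ ≤ _ := by
        have hε : 0 ≤ ε := nonneg_of_mul_nonneg_left ((Nat.cast_nonneg _).trans h) (by positivity)
        rw [← ENNReal.ofReal_div_of_pos (by norm_num), ← ENNReal.ofReal_mul (by positivity)]
        refine ENNReal.ofReal_le_ofReal ?_
        rw [inv_mul_le_iff₀ (by positivity)]
        nlinarith [mul_le_mul_of_nonneg_left (pow_le_pow_left₀ (by linarith) hr.1 3) hε]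

theorem down {k : ℕ} (h : ∀ ε : ℝ, 0 < ε → ∃ N M : ℕ, 4 ≤ N ∧ N ≤ ε * M ∧
    ∃ c : ℤ × ℤ → Fin k, (mono N M c : ℝ) ≤ ε * N * M ^ 2) : Col k := by
  have h1 : ∀ n : ℕ, ∃ c : ℂ → Fin k, Measurable c ∧ volume {p : ℂ × ℝ | ‖p.1‖ ≤ n ∧
      p.2 ∈ Ioc 0 (2 * π) ∧ c (p.1 + e p.2) = c p.1} ≤
        ENNReal.ofReal (2 * (1 / ((n : ℝ) + 1))) := fun n => by
    set L : ℝ := 4 * (n + 2) with hL
    have hn : (0:ℝ) ≤ n := Nat.cast_nonneg n
    have hL0 : 0 < L := by positivity
    obtain ⟨N, M, hN, hM, c, hc⟩ := h (1 / ((n : ℝ) + 1) / (4 * L ^ 2)) (by positivity)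
    have hN' : (4:ℝ) ≤ N := by exact_mod_cast hN
    have h2 : L * N ≤ M := by
      rw [div_div, one_div_mul_eq_div, le_div_iff₀ (by positivity)] at hM
      refine le_trans ?_ hM
      rw [mul_comm L]
      gcongr
      nlinarith [mul_nonneg hn (sq_nonneg L)]
    obtain ⟨j, hj⟩ := exists_tile (N := N) (M := M) (s := 4 * (n + 2) * N) (by positivity)
      (by rw [hL] at h2; exact_mod_cast h2) c
    refine step hN (j := j) (c := c) (le_of_mul_le_mul_right (hj.trans ?_)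
      (show (0:ℝ) < M ^ 2 by nlinarith [mul_pos hL0 (show (0:ℝ) < N by linarith)]))
    refine (mul_le_mul_of_nonneg_left hc (by positivity)).trans_eq ?_
    push_cast
    rw [← hL]
    field_simp
  choose cn hm hb using h1
  obtain ⟨c, hc, hp⟩ := P032.T.lim k cn hm fun R => by
    have h2 : Tendsto (fun n : ℕ => ENNReal.ofReal (2 * (1 / ((n : ℝ) + 1)))) atTop (𝓝 0) := by
      simpa using ENNReal.tendsto_ofReal (tendsto_one_div_add_atTop_nhds_zero_nat.const_mul (2:ℝ))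
    refine tendsto_of_tendsto_of_tendsto_of_le_of_le' tendsto_const_nhds h2
      (Eventually.of_forall fun _ => zero_le) ?_
    filter_upwards [tendsto_natCast_atTop_atTop.eventually_ge_atTop R] with n hn
    refine le_trans (measure_mono fun p hp => ?_) (hb n)
    exact ⟨hp.1.trans hn, hp.2⟩
  obtain ⟨c', h', -⟩ := P032.R2.H125.exists_full hc hp
  let φ : ℂ ≃ₗᵢ[ℝ] EuclideanSpace ℝ (Fin 2) := Complex.orthonormalBasisOneI.repr
  exact ⟨fun x => c' (φ.symm x), fun x y hxy => h' _ _ (by rw [φ.symm.dist_map, dist_eq_norm, hxy])⟩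

end Vale.Agent.N032Y
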