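import Vale.Agent.N032Y.Down
import Vale.Agent.N032.Final

/-! P032: the lattice criterion. -/

open Set Filter

namespace Vale.Agent.N032Y

theorem six_le {k : ℕ} (h : Col k) : 6 ≤ k := by
  obtain ⟨c, hc⟩ := h
  exact N032.six_le c fun x y h => hc x y (by rwa [← dist_eq_norm])

theorem col_seven : Col 7 := by
  obtain ⟨c, hc⟩ := N032.seven
  exact ⟨c, fun x y h => hc x y (by rwa [dist_eq_norm])⟩

theorem least_seven : IsLeast {k | Col k} 7 ↔ ¬ Col 6 :=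
  ⟨fun h h' => absurd (h.2 h') (by norm_num), fun h => ⟨col_seven, fun _ hk =>
    Nat.succ_le_of_lt ((six_le hk).lt_of_ne fun e => h (e ▸ hk))⟩⟩

theorem six_or_seven : IsLeast {k | Col k} 6 ∨ IsLeast {k | Col k} 7 := by
  by_cases h : Col 6
  · exact Or.inl ⟨h, fun _ hk => six_le hk⟩
  · exact Or.inr (least_seven.2 h)

theorem up' {k : ℕ} (h : Col k) (N M : ℕ) (hN : 4 ≤ N) :
    ∃ c : ℤ × ℤ → Fin k, mono N M c ^ 4 ≤ 10 ^ 12 * N ^ 3 * M ^ 8 := by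
  obtain ⟨c, hc⟩ := up h N M hN
  have h1 := pow_le_pow_left₀ (Nat.cast_nonneg _) hc 4
  rw [mul_pow, mul_pow, ← Real.rpow_natCast ((N : ℝ) ^ (3 / 4 : ℝ)),
    ← Real.rpow_mul (Nat.cast_nonneg N), ← pow_mul] at h1
  norm_num at h1
  exact ⟨c, by exact_mod_cast h1⟩

theorem large {ε : ℝ} (hε : 0 < ε) : ∀ᶠ N : ℕ in atTop, 4 ≤ N ∧ (N : ℝ) ≤ ε * (N ^ 2 : ℕ) ∧
    ∀ m M : ℕ, m ^ 4 ≤ 10 ^ 12 * N ^ 3 * M ^ 8 → (m : ℝ) ≤ ε * N * M ^ 2 := by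
  filter_upwards [eventually_ge_atTop 4, tendsto_natCast_atTop_atTop.eventually_ge_atTop (1 / ε),
    tendsto_natCast_atTop_atTop.eventually_ge_atTop ((10:ℝ) ^ 12 / ε ^ 4)] with N h1 h2 h3
  rw [div_le_iff₀ (by positivity)] at h2 h3
  refine ⟨h1, ?_, fun m M h => ?_⟩
  · push_cast
    nlinarith [(Nat.cast_nonneg N : (0:ℝ) ≤ N)]
  · refine (pow_le_pow_iff_left₀ (Nat.cast_nonneg _) (by positivity) four_ne_zero).1 ?_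
    have h4 : (m : ℝ) ^ 4 ≤ 10 ^ 12 * N ^ 3 * M ^ 8 := by exact_mod_cast h
    calc _ ≤ _ := h4
      _ ≤ N * ε ^ 4 * N ^ 3 * M ^ 8 := by gcongr
      _ = _ := by ring

theorem tfae (k : ℕ) : List.TFAE [Col k,
    ∀ N M : ℕ, 4 ≤ N → ∃ c : ℤ × ℤ → Fin k, mono N M c ^ 4 ≤ 10 ^ 12 * N ^ 3 * M ^ 8,
    ∀ ε : ℝ, 0 < ε → ∃ N M : ℕ, 4 ≤ N ∧ N ≤ ε * M ∧
      ∃ c : ℤ × ℤ → Fin k, mono N M c ≤ ε * N * M ^ 2] := by
  tfae_have 1 → 2 := up'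
  tfae_have 2 → 3 := fun h ε hε => by
    obtain ⟨N, h1, h2, h3⟩ := (large hε).exists
    obtain ⟨c, hc⟩ := h N (N ^ 2) h1
    exact ⟨N, N ^ 2, h1, h2, c, h3 _ _ hc⟩
  tfae_have 3 → 1 := down
  tfae_finish

theorem gap {k : ℕ} (h : ¬ Col k) : ∃ ε : ℝ, 0 < ε ∧ ∀ N M : ℕ, 4 ≤ N → N ≤ ε * M →
    ∀ c : ℤ × ℤ → Fin k, ε * N * M ^ 2 < mono N M c := by
  have h1 := mt down h
  push Not at h1
  exact h1

theorem seven_tfae : List.TFAE [IsLeast {k | Col k} 7,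
    ∃ N : ℕ, 4 ≤ N ∧ ∀ c : ℤ × ℤ → Fin 6, 10 ^ 12 * N ^ 19 < mono N (N ^ 2) c ^ 4,
    ∀ᶠ N : ℕ in atTop, ∀ c : ℤ × ℤ → Fin 6, 10 ^ 12 * N ^ 19 < mono N (N ^ 2) c ^ 4] := by
  have e : ∀ N : ℕ, 10 ^ 12 * N ^ 19 = 10 ^ 12 * N ^ 3 * (N ^ 2) ^ 8 := fun N => by ring
  tfae_have 1 → 3 := fun h => by
    obtain ⟨ε, hε, h1⟩ := gap (least_seven.1 h)
    filter_upwards [large hε] with N ⟨h2, h3, h4⟩ c
    rw [e]
    exact lt_of_not_ge fun h5 => (h1 N _ h2 h3 c).not_ge (h4 _ _ h5)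
  tfae_have 3 → 2 := fun h => ((eventually_ge_atTop 4).and h).exists
  tfae_have 2 → 1 := fun ⟨N, hN, h⟩ => least_seven.2 fun h' => by
    obtain ⟨c, hc⟩ := up' h' N (N ^ 2) hN
    exact (h c).not_ge (e N ▸ hc)
  tfae_finish

theorem five : ∃ ε : ℝ, 0 < ε ∧ ∀ N M : ℕ, 4 ≤ N → N ≤ ε * M → ∀ c : ℤ × ℤ → Fin 5,
    ε * N * M ^ 2 < mono N M c ∧ mono N M (fun _ => (0 : Fin 1)) ≤ 101 * N * M ^ 2 := by
  obtain ⟨ε, hε, h⟩ := gap (k := 5) fun h => absurd (six_le h) (by norm_num)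
  exact ⟨ε, hε, fun N M h1 h2 c => ⟨h N M h1 h2 c, by exact_mod_cast total N M h1 _⟩⟩

end Vale.Agent.N032Y
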