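import Vale.Agent.P032.R2.H125.Full

/-! P032: integrals over one period, polar coordinates, and affine images of the arcsine law. -/

open MeasureTheory Set Filter Topology Real
open scoped ENNReal

namespace Vale.Agent.N032Y

open Vale.Agent.P032.M

/-- arc length on one period -/
noncomputable abbrev arc : Measure ℝ := volume.restrict (Ioc 0 (2 * π))

theorem arc_univ : arc univ = ENNReal.ofReal (2 * π) := by simp

theorem per_Ioc {g : ℝ → ℝ≥0∞} (hg : Function.Periodic g (2 * π)) (s : ℝ) :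
    ∫⁻ t in Ioc s (s + 2 * π), g t = ∫⁻ t, g t ∂arc := by
  have : Fact (0 < 2 * π) := ⟨two_pi_pos⟩
  have h1 := AddCircle.lintegral_preimage (2 * π) s hg.lift
  have h2 := AddCircle.lintegral_preimage (2 * π) 0 hg.lift
  simp only [Function.Periodic.lift_coe, zero_add] at h1 h2
  rw [h1, h2]

theorem per_shift {g : ℝ → ℝ≥0∞} (hg : Function.Periodic g (2 * π)) (s : ℝ) :
    ∫⁻ t, g (t + s) ∂arc = ∫⁻ t, g t ∂arc := by
  rw [← per_Ioc hg s, ← (measurePreserving_add_right volume s).setLIntegral_comp_preimage_emb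
    (measurableEmbedding_addRight s) g]
  simp

theorem e_per (t : ℝ) : e (t + 2 * π) = e t := by simpa using e_add_int t 1

theorem polar {H : ℂ → ℝ≥0∞} (hH : Measurable H) (x : ℂ) :
    ∫⁻ y, H y = ∫⁻ r in Ioi (0:ℝ), ENNReal.ofReal r * ∫⁻ t, H (x + r * e t) ∂arc := by
  have he : ∀ p : ℝ × ℝ, Complex.polarCoord.symm p = p.1 * e p.2 := fun p => by
    rw [Complex.polarCoord_symm_apply, e, Complex.exp_mul_I]
    push_cast
    rfl
  have hm : Measurable fun p : ℝ × ℝ => H (x + p.1 * e p.2) :=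
    hH.comp (measurable_const.add ((Complex.measurable_ofReal.comp measurable_fst).mul
      (measurable_e.comp measurable_snd)))
  rw [← lintegral_add_left_eq_self H x, ← Complex.lintegral_comp_polarCoord_symm,
    polarCoord_target, Measure.volume_eq_prod, ← Measure.prod_restrict]
  simp only [he, smul_eq_mul]
  rw [lintegral_prod (fun p : ℝ × ℝ => ENNReal.ofReal p.1 * H (x + p.1 * e p.2))
    ((measurable_fst.ennreal_ofReal.mul hm).aemeasurable)]
  refine lintegral_congr fun r => ?_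
  rw [lintegral_const_mul' _ _ ENNReal.ofReal_ne_top, setLIntegral_congr Ioo_ae_eq_Ioc,
    ← per_Ioc (fun t => by rw [e_per]) (-π), show -π + 2 * π = π by ring]

theorem per_cos (H : ℝ → ℝ≥0∞) :
    ∫⁻ t, H (cos t) ∂arc = 2 * ∫⁻ t in Icc 0 π, H (cos t) := by
  have h1 : ∫⁻ t in Ioc π (2 * π), H (cos t) = ∫⁻ t in Icc 0 π, H (cos t) := by
    rw [← setLIntegral_congr Ico_ae_eq_Icc,
      ← (Measure.measurePreserving_sub_left volume (2 * π)).setLIntegral_comp_preimage_emb
      (MeasurableEquiv.subLeft (2 * π)).measurableEmbedding]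
    simp only [cos_two_pi_sub, preimage_const_sub_Ioc, sub_self]
    rw [show 2 * π - π = π by ring]
  rw [arc, ← Ioc_union_Ioc_eq_Ioc pi_pos.le (by linarith [pi_pos]),
    lintegral_union measurableSet_Ioc (Ioc_disjoint_Ioc_of_le le_rfl), h1,
    setLIntegral_congr Ioc_ae_eq_Icc, two_mul]

theorem int_sin {γ : ℝ} (hγ : 0 < γ) (hγ' : γ ≤ 1) :
    ∫⁻ t in Ioo γ (π - γ), ENNReal.ofReal (γ ^ 2 / 8 / sin t ^ 2) ≤ ENNReal.ofReal γ := by
  have hle : γ ≤ π - γ := by linarith [pi_gt_three]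
  have hs : ∀ t ∈ uIcc γ (π - γ), sin t ≠ 0 := fun t ht => by
    rw [uIcc_of_le hle] at ht
    exact (sin_pos_of_pos_of_lt_pi (by linarith [ht.1]) (by linarith [ht.2])).ne'
  have hc : ContinuousOn (fun t => γ ^ 2 / 8 / sin t ^ 2) (uIcc γ (π - γ)) :=
    continuousOn_const.div (by fun_prop) fun t ht => pow_ne_zero _ (hs t ht)
  have h1 := intervalIntegral.integral_eq_sub_of_hasDerivAt
    (f := fun t => -(γ ^ 2 / 8) * (cos t / sin t)) (fun t ht => by
      refine (((hasDerivAt_cos t).div (hasDerivAt_sin t) (hs t ht)).const_mul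
        (-(γ ^ 2 / 8))).congr_deriv ?_
      rw [show -sin t * sin t - cos t * cos t = -1 by nlinarith [sin_sq_add_cos_sq t]]
      ring) hc.intervalIntegrable
  rw [setLIntegral_congr Ioo_ae_eq_Ioc, ← ofReal_integral_eq_lintegral_ofReal
    ((intervalIntegrable_iff_integrableOn_Ioc_of_le hle).1 hc.intervalIntegrable)
    (Eventually.of_forall fun t => by positivity), ← intervalIntegral.integral_of_le hle, h1]
  refine ENNReal.ofReal_le_ofReal ?_
  have h2 : γ / 2 ≤ sin γ := by
    have := mul_le_sin hγ.le (by linarith [pi_gt_three])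
    have h3 : 1 / 2 ≤ 2 / π := by
      rw [div_le_div_iff₀ (by norm_num) pi_pos]
      linarith [pi_lt_four]
    nlinarith
  have h3 : cos γ / sin γ ≤ 2 / γ := by
    rw [div_le_div_iff₀ (by linarith) hγ]
    nlinarith [cos_le_one γ]
  have h4 : γ ^ 2 * (2 / γ) = 2 * γ := by field_simp
  rw [cos_pi_sub, sin_pi_sub, neg_div]
  nlinarith [mul_le_mul_of_nonneg_left h3 (sq_nonneg γ)]

theorem tv {G : ℝ → ℝ≥0∞} {S : ℝ≥0∞} (hG : ∀ v, G v ≤ S) {α β α' β' γ : ℝ} (hβ : 0 < β)
    (hβ' : 0 < β') (hγ : 0 < γ) (hγ' : γ ≤ 1)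
    (hκ : |β' ^ 2 - β ^ 2| + 2 * β * |α' - α| + (α' - α) ^ 2 ≤ β ^ 2 * γ ^ 2 / 4) :
    ∫⁻ t in Icc 0 π, G (α - β * cos t) ≤
      (∫⁻ t in Icc 0 π, G (α' - β' * cos t)) + S * ENNReal.ofReal (3 * γ) := by
  set s := Ioo γ (π - γ) with hs
  let u : ℝ → ℝ := fun t => (α' - α + β * cos t) / β'
  have hsin : ∀ t ∈ s, γ / 2 < sin t := fun t ht => by
    have h3 : 1 / 2 < 2 / π := by
      rw [div_lt_div_iff₀ (by norm_num) pi_pos]
      linarith [pi_lt_four]
    rcases le_total t (π / 2) with h | h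
    · have := mul_le_sin (x := t) (by linarith [ht.1]) h
      nlinarith [ht.1]
    · have := mul_le_sin (x := π - t) (by linarith [ht.2]) (by linarith)
      rw [sin_pi_sub] at this
      nlinarith [ht.2]
  have hY : ∀ t, |β' ^ 2 * (1 - u t ^ 2) - (β * sin t) ^ 2| ≤ β ^ 2 * γ ^ 2 / 4 := fun t => by
    have h1 : β' ^ 2 * (1 - u t ^ 2) - (β * sin t) ^ 2 =
        (β' ^ 2 - β ^ 2) - 2 * β * ((α' - α) * cos t) - (α' - α) ^ 2 := by
      simp only [u]
      field_simp
      nlinarith [sin_sq_add_cos_sq t]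
    have h2 : |(α' - α) * cos t| ≤ |α' - α| := by
      rw [abs_mul]
      exact mul_le_of_le_one_right (abs_nonneg _) (abs_cos_le_one t)
    rw [h1, abs_le]
    constructor <;> nlinarith [abs_le.1 h2, le_abs_self (β' ^ 2 - β ^ 2),
      neg_abs_le (β' ^ 2 - β ^ 2), sq_nonneg (α' - α)]
  have hu : ∀ t ∈ s, u t ^ 2 < 1 := fun t ht => by
    have h1 := (abs_le.1 (hY t)).1
    have h2 : (γ / 2) ^ 2 < sin t ^ 2 := pow_lt_pow_left₀ (hsin t ht) (by positivity) two_ne_zero
    have h3 : 0 < β' ^ 2 * (1 - u t ^ 2) := by nlinarith [pow_pos hβ 2]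
    linarith [(mul_pos_iff_of_pos_left (pow_pos hβ' 2)).1 h3]
  have hu' : ∀ t ∈ s, u t ∈ Icc (-1 : ℝ) 1 := fun t ht =>
    abs_le.1 ((sq_lt_one_iff_abs_lt_one _).1 (hu t ht)).le
  have hd : ∀ t ∈ s, HasDerivWithinAt (fun t => arccos (u t))
      (-(1 / √(1 - u t ^ 2)) * (β * -sin t / β')) s t := fun t ht => by
    have h := abs_lt.1 ((sq_lt_one_iff_abs_lt_one _).1 (hu t ht))
    exact ((hasDerivAt_arccos h.1.ne' h.2.ne).comp t
      ((((hasDerivAt_cos t).const_mul β).const_add (α' - α)).div_const β')).hasDerivWithinAt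
  have hi : InjOn (fun t => arccos (u t)) s := fun t ht t' ht' h => by
    have h1 := arccos_injOn (hu' t ht) (hu' t' ht') h
    simp only [u] at h1
    refine injOn_cos ⟨by linarith [ht.1], by linarith [ht.2]⟩
      ⟨by linarith [ht'.1], by linarith [ht'.2]⟩ ?_
    field_simp at h1
    exact mul_left_cancel₀ hβ.ne' (by linarith)
  have h1 := lintegral_image_eq_lintegral_abs_deriv_mul measurableSet_Ioo hd hi
    fun t => G (α' - β' * cos t)
  have h2 : ∫⁻ t in s, G (α - β * cos t) ≤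
      (∫⁻ t in Icc 0 π, G (α' - β' * cos t)) + S * ENNReal.ofReal γ := by
    refine le_trans ?_ (add_le_add (h1.ge.trans (lintegral_mono_set ?_))
      (mul_le_mul_right (int_sin hγ hγ') S))
    · rw [← lintegral_const_mul _ (by fun_prop), ← lintegral_add_right _ (by fun_prop)]
      refine setLIntegral_mono' measurableSet_Ioo fun t ht => ?_
      have h3 : α' - β' * cos (arccos (u t)) = α - β * cos t := by
        rw [cos_arccos (hu' t ht).1 (hu' t ht).2]
        simp only [u]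
        field_simp
        ring
      have hX : 0 < sin t := by linarith [hsin t ht]
      have hR : 0 < √(1 - u t ^ 2) := sqrt_pos.2 (by linarith [hu t ht])
      have h4 : 1 ≤ |-(1 / √(1 - u t ^ 2)) * (β * -sin t / β')| + γ ^ 2 / 8 / sin t ^ 2 := by
        have h5 : β' * √(1 - u t ^ 2) ≤ β * sin t * (1 + γ ^ 2 / 8 / sin t ^ 2) := by
          refine le_of_sq_le_sq ?_ (by positivity)
          have h6 : (β * sin t) ^ 2 * (γ ^ 2 / 8 / sin t ^ 2) = β ^ 2 * γ ^ 2 / 8 := by
            field_simp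
          rw [mul_pow, sq_sqrt (by linarith [hu t ht]), mul_pow (β * sin t)]
          nlinarith [(abs_le.1 (hY t)).2, sq_nonneg (β * sin t * (γ ^ 2 / 8 / sin t ^ 2))]
        have h7 : -(1 / √(1 - u t ^ 2)) * (β * -sin t / β') =
            β * sin t / (β' * √(1 - u t ^ 2)) := by field_simp
        rw [h7, abs_of_pos (by positivity)]
        have h8 : 1 / (1 + γ ^ 2 / 8 / sin t ^ 2) ≤ β * sin t / (β' * √(1 - u t ^ 2)) := by
          rw [div_le_div_iff₀ (by positivity) (by positivity)]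
          linarith
        have h9 : 1 - γ ^ 2 / 8 / sin t ^ 2 ≤ 1 / (1 + γ ^ 2 / 8 / sin t ^ 2) := by
          rw [le_div_iff₀ (by positivity)]
          nlinarith [sq_nonneg (γ ^ 2 / 8 / sin t ^ 2)]
        linarith
      rw [h3]
      calc G (α - β * cos t) = 1 * G (α - β * cos t) := (one_mul _).symm
        _ ≤ (ENNReal.ofReal |-(1 / √(1 - u t ^ 2)) * (β * -sin t / β')| +
            ENNReal.ofReal (γ ^ 2 / 8 / sin t ^ 2)) * G (α - β * cos t) := by
          refine mul_le_mul_left ?_ _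
          rw [← ENNReal.ofReal_add (abs_nonneg _) (by positivity), ← ENNReal.ofReal_one]
          exact ENNReal.ofReal_le_ofReal h4
        _ ≤ _ := by
          rw [add_mul, mul_comm S]
          exact add_le_add le_rfl (mul_le_mul_right (hG _) _)
    · rintro _ ⟨t, -, rfl⟩
      exact ⟨arccos_nonneg _, arccos_le_pi _⟩
  have h3 : ∀ a : ℝ, ∫⁻ t in Icc a (a + γ), G (α - β * cos t) ≤ S * ENNReal.ofReal γ := fun a =>
    (lintegral_mono fun t => hG _).trans_eq (by simp)
  have h4 : Icc 0 π ⊆ (s ∪ Icc 0 (0 + γ)) ∪ Icc (π - γ) (π - γ + γ) := fun t ht => by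
    rcases le_or_gt t γ with h | h
    · exact Or.inl (Or.inr ⟨ht.1, by linarith⟩)
    rcases le_or_gt (π - γ) t with h' | h'
    · exact Or.inr ⟨h', by linarith [ht.2]⟩
    · exact Or.inl (Or.inl ⟨h, h'⟩)
  refine (lintegral_mono_set h4).trans ((lintegral_union_le _ _ _).trans ((add_le_add
    ((lintegral_union_le _ _ _).trans (add_le_add h2 (h3 _))) (h3 _)).trans_eq ?_))
  rw [ENNReal.ofReal_mul (by norm_num), ENNReal.ofReal_ofNat]
  ring

end Vale.Agent.N032Y
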