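import Vale.Agent.N032Y.Per

/-! P032: a set with almost no pairs at distance `R` has few pairs at distances near `R`. -/

open MeasureTheory Set Filter Topology Real
open scoped ENNReal

namespace Vale.Agent.N032Y

open Vale.Agent.P032.M

/-- the arc of the circle of radius `r` about `x` lying in `A` -/
noncomputable def T (A : Set ℂ) (r : ℝ) (x : ℂ) : ℝ≥0∞ :=
  ∫⁻ t, A.indicator 1 (x + r * e t) ∂arc

/-- autocorrelation -/
noncomputable def F (A : Set ℂ) (z : ℂ) : ℝ≥0∞ := ∫⁻ x, A.indicator 1 x * A.indicator 1 (x + z)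

/-- radial autocorrelation, as a function of the squared distance -/
noncomputable def G (A : Set ℂ) (v : ℝ) : ℝ≥0∞ := ∫⁻ s, F A (√v * e s) ∂arc

variable {A : Set ℂ}

theorem ind_le_one (A : Set ℂ) (x : ℂ) : A.indicator (1 : ℂ → ℝ≥0∞) x ≤ 1 :=
  indicator_le_self' (fun _ _ => zero_le_one) x

theorem T_le (A : Set ℂ) (r : ℝ) (x : ℂ) : T A r x ≤ ENNReal.ofReal (2 * π) :=
  (lintegral_mono fun _ => ind_le_one A _).trans_eq (by simp)

theorem F_le (hA : MeasurableSet A) (z : ℂ) : F A z ≤ volume A :=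
  (lintegral_mono fun _ => mul_le_of_le_one_right' (ind_le_one A _)).trans_eq
    (lintegral_indicator_one hA)

theorem G_le (hA : MeasurableSet A) (v : ℝ) : G A v ≤ volume A * ENNReal.ofReal (2 * π) :=
  (lintegral_mono fun _ => F_le hA _).trans_eq (by simp)

theorem meas_ind (hA : MeasurableSet A) : Measurable (A.indicator (1 : ℂ → ℝ≥0∞)) :=
  measurable_one.indicator hA

theorem meas_T (hA : MeasurableSet A) : Measurable fun p : ℝ × ℂ => T A p.1 p.2 := by
  have := meas_ind hA
  have := measurable_e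
  exact Measurable.lintegral_prod_right'
    (f := fun q : (ℝ × ℂ) × ℝ => A.indicator 1 (q.1.2 + q.1.1 * e q.2)) (by fun_prop)

theorem meas_F (hA : MeasurableSet A) : Measurable (F A) := by
  have := meas_ind hA
  exact Measurable.lintegral_prod_right'
    (f := fun q : ℂ × ℂ => A.indicator 1 q.2 * A.indicator 1 (q.2 + q.1)) (by fun_prop)

theorem corr (hA : MeasurableSet A) (a b : ℝ) :
    ∫⁻ x, T A a x * T A b x = ∫⁻ t, G A (a ^ 2 + b ^ 2 - 2 * a * b * cos t) ∂arc := by
  have h0 := meas_ind hA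
  have he := measurable_e
  have hF := meas_F hA
  calc ∫⁻ x, T A a x * T A b x
      = ∫⁻ x, ∫⁻ p : ℝ × ℝ, A.indicator 1 (x + a * e p.1) * A.indicator 1 (x + b * e p.2)
          ∂arc.prod arc := lintegral_congr fun x =>
        (lintegral_prod_mul (f := fun s => A.indicator 1 (x + a * e s))
          (g := fun s => A.indicator 1 (x + b * e s)) (by fun_prop) (by fun_prop)).symm
    _ = ∫⁻ p : ℝ × ℝ, F A (b * e p.2 - a * e p.1) ∂arc.prod arc := by
        rw [lintegral_lintegral_swap (by fun_prop)]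
        refine lintegral_congr fun p => ?_
        rw [F, ← lintegral_add_right_eq_self (fun x => A.indicator (1 : ℂ → ℝ≥0∞) x *
          A.indicator 1 (x + (b * e p.2 - a * e p.1))) (a * e p.1)]
        refine lintegral_congr fun x => ?_
        congr 2
        ring
    _ = ∫⁻ s, ∫⁻ t, F A (e s * (b * e t - a)) ∂arc ∂arc := by
        rw [lintegral_prod _ (by fun_prop)]
        refine lintegral_congr fun s => ?_
        rw [← per_shift (fun t => by simp only [e_per]) s]
        refine lintegral_congr fun t => ?_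
        rw [← P032.R2.H125.e_mul]
        congr 1
        ring
    _ = _ := by
        rw [lintegral_lintegral_swap (by fun_prop)]
        refine lintegral_congr fun t => ?_
        have h1 : √(a ^ 2 + b ^ 2 - 2 * a * b * cos t) = ‖b * e t - a‖ := by
          rw [Complex.norm_eq_sqrt_sq_add_sq]
          congr 1
          simp only [e, Complex.sub_re, Complex.sub_im, Complex.re_ofReal_mul,
            Complex.im_ofReal_mul, Complex.exp_ofReal_mul_I_re, Complex.exp_ofReal_mul_I_im,
            Complex.ofReal_re, Complex.ofReal_im]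
          nlinarith [sin_sq_add_cos_sq t]
        rw [G, h1, ← per_shift (g := fun s => F A (‖b * e t - a‖ * e s))
          (fun s => by simp only [e_per]) (Complex.arg (b * e t - a))]
        refine lintegral_congr fun s => ?_
        rw [← P032.R2.H125.e_mul, ← mul_assoc, mul_comm]
        congr 2
        exact (Complex.norm_mul_exp_arg_mul_I _).symm

theorem corr_le (hA : MeasurableSet A) {a b γ : ℝ} (ha : 0 < a) (hb : 0 < b) (hγ : 0 < γ)
    (hγ' : γ ≤ 1) (h : 8 * a ^ 2 * |b ^ 2 - a ^ 2| + (b ^ 2 - a ^ 2) ^ 2 ≤ a ^ 4 * γ ^ 2) :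
    ∫⁻ x, T A a x * T A a x ≤
      (∫⁻ x, T A a x * T A b x) + ENNReal.ofReal (12 * π * γ) * volume A := by
  rw [corr hA, corr hA, per_cos fun u => G A (a ^ 2 + a ^ 2 - 2 * a * a * u),
    per_cos fun u => G A (a ^ 2 + b ^ 2 - 2 * a * b * u)]
  refine (mul_le_mul_right (tv (G_le hA) (α' := a ^ 2 + b ^ 2) (β' := 2 * a * b) (by positivity)
    (by positivity) hγ hγ' ?_) 2).trans_eq ?_
  · rw [show (2 * a * b) ^ 2 - (2 * a * a) ^ 2 = 4 * a ^ 2 * (b ^ 2 - a ^ 2) by ring,
      show a ^ 2 + b ^ 2 - (a ^ 2 + a ^ 2) = b ^ 2 - a ^ 2 by ring, abs_mul,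
      abs_of_pos (by positivity : 0 < 4 * a ^ 2)]
    nlinarith
  · rw [mul_add, show 12 * π * γ = 2 * (2 * π * (3 * γ)) by ring,
      ENNReal.ofReal_mul (q := 2 * π * (3 * γ)) (by norm_num), ENNReal.ofReal_mul two_pi_pos.le,
      ENNReal.ofReal_ofNat]
    ring

theorem modulus (hA : MeasurableSet A) (hA' : volume A ≠ ∞) {q r : ℝ} (hq : 0 < q)
    (hr : |r - q ^ 4| ≤ 4) (h : ∀ᵐ x, x ∈ A → T A (q ^ 4) x = 0) :
    ∫⁻ x in A, T A r x ≤ ENNReal.ofReal (55 / q) * volume A := by
  rcases le_or_gt q 8 with h8 | h8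
  · refine (lintegral_mono fun x => T_le A r x).trans ?_
    rw [setLIntegral_const]
    refine mul_le_mul_left (ENNReal.ofReal_le_ofReal ?_) _
    rw [le_div_iff₀ hq]
    nlinarith [pi_lt_d2, pi_pos]
  set R := q ^ 4 with hR
  have hq2 : 64 < q ^ 2 := by nlinarith
  have hR' : 4096 < R := by rw [hR]; nlinarith
  obtain ⟨h1, h2⟩ := abs_le.1 hr
  have hγ : 10 / q ^ 2 ≤ 1 := by
    rw [div_le_one (by positivity)]
    linarith
  have hd : |R ^ 2 - r ^ 2| ≤ 9 * R := by
    rw [abs_le]
    constructor <;> nlinarith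
  have hc : ∀ a d : ℝ, R - 4 ≤ a → |d| ≤ 9 * R →
      8 * a ^ 2 * |d| + d ^ 2 ≤ a ^ 4 * (10 / q ^ 2) ^ 2 := fun a d ha hd => by
    have h3 : (10 / q ^ 2) ^ 2 = 100 / R := by
      rw [hR]
      field_simp
      norm_num
    have h4 : 0.99 * R ^ 2 ≤ a ^ 2 := by nlinarith
    have h5 : d ^ 2 ≤ (9 * R) ^ 2 := by
      rw [← sq_abs]
      exact pow_le_pow_left₀ (abs_nonneg d) hd 2
    rw [h3, ← mul_div_assoc, le_div_iff₀ (by linarith)]
    have h6 : 8 * a ^ 2 * |d| ≤ 8 * a ^ 2 * (9 * R) := by gcongr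
    have h7 : a ^ 2 * (0.99 * R ^ 2) ≤ a ^ 2 * a ^ 2 := by gcongr
    have h8 : 4 * R ≤ a ^ 2 := by nlinarith
    have h9 : 4 * R * R ^ 2 ≤ a ^ 2 * R ^ 2 := by gcongr
    have h10 := mul_le_mul_of_nonneg_right (add_le_add h6 h5) (by linarith : 0 ≤ R)
    nlinarith [pow_pos (by linarith : 0 < R) 3]
  have hT : ∀ a, Measurable (T A a) := fun a =>
    (meas_T hA).comp (measurable_const.prodMk measurable_id)
  have c1 := corr_le hA (a := r) (b := R) (by linarith) (by linarith) (by positivity) hγ
    (hc r _ (by linarith) hd)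
  have c2 := corr_le hA (a := R) (b := r) (by linarith) (by linarith) (by positivity) hγ
    (hc R _ (by linarith) (by rwa [abs_sub_comm]))
  have hfin : ∫⁻ x, T A r x * T A R x ≠ ∞ := by
    rw [corr hA]
    refine ((lintegral_mono fun t => G_le hA _).trans_lt ?_).ne
    rw [lintegral_const, arc_univ]
    finiteness
  have c3 : (∫⁻ x in A, T A r x * T A r x) + 2 * ∫⁻ x, T A r x * T A R x ≤
      (∫⁻ x, T A r x * T A r x) + ∫⁻ x, T A R x * T A R x := by
    have h3 := hT r
    have h4 := hT R
    rw [← lintegral_indicator hA, ← lintegral_const_mul' 2 _ (by simp),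
      ← lintegral_add_right _ (by fun_prop), ← lintegral_add_right _ (by fun_prop)]
    refine lintegral_mono_ae (h.mono fun x hx => ?_)
    by_cases hxA : x ∈ A
    · simp [hx hxA, hxA]
    · rw [indicator_of_notMem hxA, zero_add]
      lift T A r x to NNReal using ((T_le A r x).trans_lt ENNReal.ofReal_lt_top).ne with u
      lift T A R x to NNReal using ((T_le A R x).trans_lt ENNReal.ofReal_lt_top).ne with v
      have : (2 * (u * v) : ℝ) ≤ u * u + v * v := by nlinarith [sq_nonneg ((u : ℝ) - v)]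
      exact_mod_cast this
  have c4 : ∫⁻ x in A, T A r x * T A r x ≤
      2 * (ENNReal.ofReal (12 * π * (10 / q ^ 2)) * volume A) := by
    refine ENNReal.le_of_add_le_add_right (ENNReal.mul_ne_top ENNReal.ofNat_ne_top hfin)
      (c3.trans ((add_le_add c1 c2).trans_eq ?_))
    simp only [mul_comm (T A R _) (T A r _)]
    ring
  calc ∫⁻ x in A, T A r x
      ≤ ∫⁻ x in A, ENNReal.ofReal (28 / q) + ENNReal.ofReal (q / 28) * (T A r x * T A r x) := by
        refine lintegral_mono fun x => ?_
        rcases le_total (T A r x) (ENNReal.ofReal (28 / q)) with h3 | h3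
        · exact le_add_right h3
        · refine le_add_left ?_
          rw [← mul_assoc]
          refine le_mul_of_one_le_left' (le_trans (le_of_eq ?_) (mul_le_mul_right h3 _))
          rw [← ENNReal.ofReal_mul (by positivity), ← ENNReal.ofReal_one]
          congr 1
          field_simp
    _ ≤ ENNReal.ofReal (28 / q) * volume A + ENNReal.ofReal (q / 28) *
        (2 * (ENNReal.ofReal (12 * π * (10 / q ^ 2)) * volume A)) := by
        rw [lintegral_add_left measurable_const, setLIntegral_const,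
          lintegral_const_mul' _ _ ENNReal.ofReal_ne_top]
        gcongr
    _ ≤ _ := by
        rw [← mul_assoc, ← mul_assoc, ← add_mul, ← ENNReal.ofReal_ofNat 2,
          ← ENNReal.ofReal_mul (by positivity), ← ENNReal.ofReal_mul (by positivity),
          ← ENNReal.ofReal_add (by positivity) (by positivity)]
        refine mul_le_mul_left (ENNReal.ofReal_le_ofReal ?_) _
        have h3 : q / 28 * 2 * (12 * π * (10 / q ^ 2)) = 60 / 7 * π / q := by
          field_simp
          norm_num
        rw [h3, ← add_div]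
        gcongr
        linarith [pi_lt_d2]

end Vale.Agent.N032Y
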