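import Vale.Agent.N032Y.Rad
import Vale.Agent.N032Y.Defs
import Vale.Agent.P032.T.ChiFinal

/-! P032: from colourings of the plane to colourings of integer boxes. -/

open MeasureTheory Set Filter Topology Real
open scoped ENNReal Classical

namespace Vale.Agent.N032Y

open Vale.Agent.P032.M

/-- the unit cell of a point -/
noncomputable def fl (x : ℂ) : ℤ × ℤ := (⌊x.re⌋, ⌊x.im⌋)

theorem meas_fl : Measurable fl :=
  (Complex.measurable_re.floor).prodMk Complex.measurable_im.floor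

theorem vol_cell (m : ℤ × ℤ) : volume (fl ⁻¹' {m}) = 1 := by
  have h : fl ⁻¹' {m} = Complex.measurableEquivRealProd ⁻¹'
      (Ico (m.1 : ℝ) (m.1 + 1) ×ˢ Ico (m.2 : ℝ) (m.2 + 1)) := by
    ext x
    simp [fl, Prod.ext_iff, Int.floor_eq_iff]
  rw [h, Complex.volume_preserving_equiv_real_prod.measure_preimage
    (measurableSet_Ico.prod measurableSet_Ico).nullMeasurableSet, Measure.volume_eq_prod,
    Measure.prod_prod]
  simp

theorem vol_fl (B : Finset (ℤ × ℤ)) : volume (fl ⁻¹' B) = B.card := by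
  rw [← sum_measure_preimage_singleton B fun y _ => meas_fl (measurableSet_singleton y)]
  simp [vol_cell]

/-- the monochromatic pairs -/
noncomputable def pairs {k : ℕ} (N : ℕ) (B : Finset (ℤ × ℤ)) (c : ℤ × ℤ → Fin k) :
    Finset ((ℤ × ℤ) × ℤ × ℤ) := (B ×ˢ B).filter fun e => Near N e.1 e.2 ∧ c e.1 = c e.2

theorem mono_eq {k : ℕ} (N M : ℕ) (c : ℤ × ℤ → Fin k) :
    mono N M c = (pairs N (box M) c).card := by
  rw [mono, ← ncard_coe_finset]
  congr 1
  ext e
  simp [pairs, and_assoc]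

theorem card_box (M : ℕ) : (box M).card = M ^ 2 := by simp [box, sq]

theorem fl_close (x y : ℂ) : ∃ d : ℝ, 0 ≤ d ∧ |‖y - x‖ - d| ≤ 3 / 2 ∧
    d ^ 2 = ((((fl x).1 - (fl y).1) ^ 2 + ((fl x).2 - (fl y).2) ^ 2 : ℤ) : ℝ) := by
  let P : ℂ := ⟨(⌊y.re⌋ : ℝ) - ⌊x.re⌋, (⌊y.im⌋ : ℝ) - ⌊x.im⌋⟩
  refine ⟨‖P‖, norm_nonneg _, (abs_norm_sub_norm_le _ _).trans (le_of_sq_le_sq ?_ (by norm_num)),
    ?_⟩
  · have h : ∀ u v : ℝ, (u - v - ((⌊u⌋ : ℝ) - ⌊v⌋)) ^ 2 ≤ 1 := fun u v =>
      (sq_le_one_iff_abs_le_one _).2 (abs_le.2 ⟨by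
        linarith [Int.floor_le u, Int.lt_floor_add_one v], by
        linarith [Int.floor_le v, Int.lt_floor_add_one u]⟩)
    rw [Complex.sq_norm, Complex.normSq_apply]
    simp only [P, Complex.sub_re, Complex.sub_im]
    nlinarith [h y.re x.re, h y.im x.im]
  · rw [Complex.sq_norm, Complex.normSq_apply]
    simp only [P, fl]
    push_cast
    ring

theorem near_dist {N : ℕ} (hN : 4 ≤ N) {x y : ℂ} (h : Near N (fl x) (fl y)) :
    ‖y - x‖ ∈ Ioo ((N : ℝ) - 4) (N + 4) := by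
  obtain ⟨d, h0, h1, h2⟩ := fl_close x y
  have hN' : (4:ℝ) ≤ N := by exact_mod_cast hN
  have h3 : ((N : ℝ) - 2) ^ 2 ≤ d ^ 2 := by rw [h2]; exact_mod_cast h.1
  have h4 : d ^ 2 ≤ ((N : ℝ) + 2) ^ 2 := by rw [h2]; exact_mod_cast h.2
  have h5 := le_of_sq_le_sq h3 h0
  have h6 := le_of_sq_le_sq h4 (by linarith)
  constructor <;> linarith [abs_le.1 h1]

theorem near_of {N : ℕ} (hN : 4 ≤ N) {x y : ℂ} (h : ‖y - x‖ ∈ Icc (N : ℝ) (N + 1 / 2)) :
    Near N (fl x) (fl y) := by
  obtain ⟨d, h0, h1, h2⟩ := fl_close x y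
  have hN' : (4:ℝ) ≤ N := by exact_mod_cast hN
  have h3 : ((N : ℝ) - 2) ^ 2 ≤ d ^ 2 :=
    pow_le_pow_left₀ (by linarith) (by linarith [abs_le.1 h1, h.1]) 2
  have h4 : d ^ 2 ≤ ((N : ℝ) + 2) ^ 2 := pow_le_pow_left₀ h0 (by linarith [abs_le.1 h1, h.2]) 2
  rw [h2] at h3 h4
  exact ⟨by exact_mod_cast h3, by exact_mod_cast h4⟩

theorem pair_polar {W : Set (ℂ × ℂ)} (hW : MeasurableSet W) {I : Set ℝ} (hI : MeasurableSet I)
    (hI' : I ⊆ Ioi 0) : volume.prod volume (W ∩ {p | ‖p.2 - p.1‖ ∈ I}) =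
      ∫⁻ r in I, ENNReal.ofReal r * ∫⁻ x, ∫⁻ t, W.indicator 1 (x, x + r * e t) ∂arc := by
  have h1 : Measurable (W.indicator (1 : ℂ × ℂ → ℝ≥0∞)) := measurable_one.indicator hW
  have h2 : Measurable (I.indicator (1 : ℝ → ℝ≥0∞)) := measurable_one.indicator hI
  have he := measurable_e
  have h3 : Measurable fun q : ℂ × ℝ => ∫⁻ t, W.indicator (1 : ℂ × ℂ → ℝ≥0∞)
      (q.1, q.1 + q.2 * e t) ∂arc := Measurable.lintegral_prod_right'
    (f := fun q : (ℂ × ℝ) × ℝ => W.indicator 1 (q.1.1, q.1.1 + q.1.2 * e q.2)) (by fun_prop)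
  calc _ = ∫⁻ p : ℂ × ℂ, I.indicator 1 ‖p.2 - p.1‖ * W.indicator 1 p ∂volume.prod volume := by
        refine (lintegral_indicator_one (hW.inter ((by fun_prop : Measurable fun p : ℂ × ℂ =>
          ‖p.2 - p.1‖) hI))).symm.trans (lintegral_congr fun p => ?_)
        by_cases h4 : p ∈ W <;> by_cases h5 : ‖p.2 - p.1‖ ∈ I <;> simp [h4, h5]
    _ = ∫⁻ x, ∫⁻ r in I, ENNReal.ofReal r * ∫⁻ t, W.indicator 1 (x, x + r * e t) ∂arc := by
        rw [lintegral_prod _ (by fun_prop)]
        refine lintegral_congr fun x => ?_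
        rw [polar (by fun_prop) x, show volume.restrict I = (volume.restrict (Ioi 0)).restrict I by
          rw [Measure.restrict_restrict hI, inter_eq_left.2 hI'], ← lintegral_indicator hI]
        refine setLIntegral_congr_fun measurableSet_Ioi fun r hr => ?_
        simp only [add_sub_cancel_left, norm_mul, norm_e, mul_one, Complex.norm_real,
          Real.norm_of_nonneg (le_of_lt hr)]
        by_cases h5 : r ∈ I <;> simp [h5]
    _ = _ := by
        rw [lintegral_lintegral_swap (by fun_prop)]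
        exact lintegral_congr fun r => lintegral_const_mul' _ _ ENNReal.ofReal_ne_top

theorem round {k : ℕ} {c : ℂ → Fin k} (hc : Measurable c) {N : ℕ} (hN : 4 ≤ N)
    (B : Finset (ℤ × ℤ)) {b : ℝ≥0∞} (h : ∀ i (r : ℝ), |r - N| ≤ 4 →
      ∫⁻ x in c ⁻¹' {i} ∩ fl ⁻¹' B, T (c ⁻¹' {i} ∩ fl ⁻¹' B) r x ≤
        b * volume (c ⁻¹' {i} ∩ fl ⁻¹' B)) :
    ∃ c' : ℤ × ℤ → Fin k, ((pairs N B c').card : ℝ≥0∞) ≤ 16 * N * b * B.card := by
  have hN' : (4:ℝ) ≤ N := by exact_mod_cast hN
  let μ : ℤ × ℤ → Measure ℂ := fun m => volume.restrict (fl ⁻¹' {m})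
  have : ∀ m, IsProbabilityMeasure (μ m) := fun m => ⟨by simp [μ, vol_cell]⟩
  let S : Set (ℂ × ℂ) := {p | c p.1 = c p.2}
  have hS : MeasurableSet S := measurableSet_eq_fun (by fun_prop) (by fun_prop)
  have h1 : Measurable (S.indicator (1 : ℂ × ℂ → ℝ≥0∞)) := measurable_one.indicator hS
  let E := (B ×ˢ B).filter fun e => Near N e.1 e.2
  let A : Fin k → Set ℂ := fun i => c ⁻¹' {i} ∩ fl ⁻¹' B
  have hA : ∀ i, MeasurableSet (A i) := fun i =>
    (hc (measurableSet_singleton i)).inter (meas_fl MeasurableSet.of_discrete)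
  obtain ⟨ω, hω⟩ := exists_le_lintegral (μ := Measure.infinitePi μ)
    (f := fun ω => ∑ e ∈ E, S.indicator 1 (ω e.1, ω e.2)) (by fun_prop)
  refine ⟨fun m => c (ω m), le_trans (le_of_eq ?_) (hω.trans ?_)⟩
  · rw [pairs, ← Finset.filter_filter, Finset.card_filter]
    simp [S, E, indicator_apply]
  have hf : Measurable (Prod.map fl fl) := meas_fl.prodMap meas_fl
  calc _ = ∑ e ∈ E, (volume.prod volume).restrict S (Prod.map fl fl ⁻¹' {e}) := by
        rw [lintegral_finsetSum _ fun e _ => by fun_prop]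
        refine Finset.sum_congr rfl fun e he => ?_
        have hne : e.1 ≠ e.2 := fun h0 => by
          have := (Finset.mem_filter.1 he).2.1
          rw [h0] at this
          nlinarith [(by exact_mod_cast hN : (4:ℤ) ≤ N)]
        rw [← lintegral_map h1 (by fun_prop), Measure.infinitePi_map_eval_prod hne,
          lintegral_indicator_one hS, Measure.prod_restrict, Measure.restrict_apply hS,
          Measure.restrict_apply (hf (measurableSet_singleton e)), inter_comm]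
        congr 2
        ext p
        simp [Prod.ext_iff]
    _ ≤ ∑ i, volume.prod volume (A i ×ˢ A i ∩ {p | ‖p.2 - p.1‖ ∈ Ioo ((N : ℝ) - 4) (N + 4)}) := by
        rw [sum_measure_preimage_singleton E fun y _ => hf (measurableSet_singleton y),
          Measure.restrict_apply (hf MeasurableSet.of_discrete)]
        refine (measure_mono fun p hp => ?_).trans (measure_iUnion_fintype_le _ _)
        obtain ⟨h2, h3⟩ := Finset.mem_filter.1 hp.1
        obtain ⟨h4, h5⟩ := Finset.mem_product.1 h2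
        exact mem_iUnion.2 ⟨c p.1, ⟨⟨rfl, h4⟩, Eq.symm hp.2, h5⟩, near_dist hN h3⟩
    _ ≤ ∑ i, 16 * N * b * volume (A i) := by
        refine Finset.sum_le_sum fun i _ => ?_
        rw [pair_polar ((hA i).prod (hA i)) measurableSet_Ioo fun r hr => by
          show 0 < r
          linarith [hr.1]]
        refine (setLIntegral_mono' (g := fun _ => 2 * N * (b * volume (A i))) measurableSet_Ioo
          fun r hr => mul_le_mul' ?_ (le_trans (le_of_eq ?_)
            (h i r (abs_le.2 ⟨by linarith [hr.1], by linarith [hr.2]⟩)))).trans_eq ?_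
        · exact ENNReal.ofReal_le_of_le_toReal (by simp; linarith [hr.2])
        · rw [← lintegral_indicator (hA i)]
          refine lintegral_congr fun x => ?_
          by_cases hx : x ∈ A i
          · simp only [indicator_of_mem hx, T, indicator_prod_one, Pi.one_apply, one_mul, A]
          · simp [hx]
        · rw [setLIntegral_const, Real.volume_Ioo, show (N : ℝ) + 4 - (N - 4) = 8 by ring,
            ENNReal.ofReal_ofNat]
          ring
    _ = _ := by
        rw [← Finset.mul_sum, ← vol_fl]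
        congr 1
        simp only [A, ← Measure.restrict_apply (hc (measurableSet_singleton _))]
        rw [sum_measure_preimage_singleton _ fun y _ => hc (measurableSet_singleton y)]
        simp

theorem round' {k : ℕ} {N M : ℕ} {b : ℝ} (hb : 0 ≤ b) {c : ℤ × ℤ → Fin k}
    (h : ((pairs N (box M) c).card : ℝ≥0∞) ≤ 16 * N * ENNReal.ofReal b * (box M).card) :
    (mono N M c : ℝ) ≤ 16 * N * b * M ^ 2 := by
  have := ENNReal.toReal_mono (by finiteness) h
  simpa [mono_eq, card_box, ENNReal.toReal_ofReal hb] using this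

theorem up {k : ℕ} (h : Col k) (N M : ℕ) (hN : 4 ≤ N) :
    ∃ c : ℤ × ℤ → Fin k, (mono N M c : ℝ) ≤ 1000 * (N : ℝ) ^ (3 / 4 : ℝ) * M ^ 2 := by
  obtain ⟨c₀, h₀⟩ := h
  let φ : ℂ ≃ₗᵢ[ℝ] EuclideanSpace ℝ (Fin 2) := Complex.orthonormalBasisOneI.repr
  obtain ⟨c, hc, hp⟩ := P032.T.transfer (fun z => c₀ (φ z)) fun x y hxy => h₀ _ _ (by
    rw [← dist_eq_norm, φ.dist_map, hxy])
  have hN' : (0:ℝ) < N := by exact_mod_cast (by omega : 0 < N)
  set q := (N : ℝ) ^ (1 / 4 : ℝ) with hq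
  have hq0 : 0 < q := by positivity
  have hq4 : q ^ 4 = N := by rw [hq, ← rpow_natCast, ← rpow_mul hN'.le]; norm_num
  have hq3 : (N : ℝ) ^ (3 / 4 : ℝ) = q ^ 3 := by
    rw [hq, ← rpow_natCast, ← rpow_mul hN'.le]; norm_num
  have hc' : Measurable fun x : ℂ => c ((N : ℝ)⁻¹ • x) := by fun_prop
  obtain ⟨c', h1⟩ := round hc' hN (box M) (b := ENNReal.ofReal (55 / q)) fun i r hr => by
    refine modulus ((hc' (measurableSet_singleton i)).inter (meas_fl MeasurableSet.of_discrete))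
      ((measure_mono inter_subset_right).trans_lt (by rw [vol_fl]; simp)).ne hq0 (by rwa [hq4]) ?_
    filter_upwards [(Measure.quasiMeasurePreserving_smul volume (inv_ne_zero hN'.ne')).ae hp]
      with x hx hxA
    refine (lintegral_congr_ae ?_).trans lintegral_zero
    filter_upwards [ae_restrict_of_ae hx] with t ht
    refine indicator_of_notMem (fun h2 => ht ?_) _
    have h3 : (N : ℝ)⁻¹ • (x + ((q ^ 4 : ℝ) : ℂ) * e t) = (N : ℝ)⁻¹ • x + e t := by
      rw [hq4, smul_add, ← Complex.real_smul, smul_smul, inv_mul_cancel₀ hN'.ne', one_smul]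
    rw [← h3]
    exact Eq.trans h2.1 (Eq.symm hxA.1)
  refine ⟨c', (round' (by positivity) h1).trans (mul_le_mul_of_nonneg_right ?_ (by positivity))⟩
  rw [hq3, ← hq4, show 16 * q ^ 4 * (55 / q) = 880 * q ^ 3 by field_simp; norm_num]
  nlinarith [pow_pos hq0 3]

theorem total {k : ℕ} (N M : ℕ) (hN : 4 ≤ N) (c : ℤ × ℤ → Fin k) :
    (mono N M c : ℝ) ≤ 101 * N * M ^ 2 := by
  obtain ⟨c', h1⟩ := round (c := fun _ => (0 : Fin 1)) measurable_const hN (box M)
    (b := ENNReal.ofReal (2 * π)) fun i r _ =>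
      (lintegral_mono fun x => T_le _ r x).trans_eq (setLIntegral_const _ _)
  have h2 : mono N M c ≤ mono N M c' := by
    rw [mono_eq, mono_eq]
    exact Finset.card_le_card (Finset.monotone_filter_right _ fun e _ he =>
      ⟨he.1, Subsingleton.elim _ _⟩)
  refine (Nat.cast_le.2 h2).trans ((round' two_pi_pos.le h1).trans
    (mul_le_mul_of_nonneg_right ?_ (by positivity)))
  nlinarith [pi_lt_d2, (Nat.cast_nonneg N : (0:ℝ) ≤ N)]

end Vale.Agent.N032Y
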